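import Vale.Agent.N213E.Fix

/-! # The model axioms for objects with a group action and the fixed point nerve -/

open CategoryTheory Limits Simplicial Opposite MonoidalCategory CartesianMonoidalCategory

namespace Vale.Agent.N213E

open Vale.Agent.P213

section

variable {J : Type} [SmallCategory J] {D : Type 1} [Category.{0} D]

/-- diagrams over an object -/
def ovr (J : Type) [SmallCategory J] (B : D) : (J ⥤ Over B) ⥤ Over ((Functor.const J).obj B) where
  obj F := Over.mk (Y := F ⋙ Over.forget B)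
    { app j := (F.obj j).hom
      naturality _ _ u := (Over.w (F.map u)).trans (Category.comp_id _).symm }
  map α := Over.homMk (Functor.whiskerRight α _) (NatTrans.ext (funext fun j => Over.w (α.app j)))

instance (B : D) : (ovr J B).IsEquivalence where
  faithful := ⟨fun e => NatTrans.ext (funext fun j =>
    Over.OverMorphism.ext (congrArg (fun φ => φ.left.app j) e))⟩
  full := ⟨fun φ => ⟨{ app j := Over.homMk (φ.left.app j) (congr_app (Over.w φ) j)
                       naturality _ _ u := Over.OverMorphism.ext (φ.left.naturality u) }, rfl⟩⟩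
  essSurj := ⟨fun X => ⟨Over.lift X.left X.hom, ⟨Over.isoMk (Iso.refl _) (Category.id_comp _)⟩⟩⟩

theorem expo_const [HasPullbacks D] {A B : D} (f : A ⟶ B) (h : (Over.pullback f).IsLeftAdjoint) :
    (Over.pullback ((Functor.const J).map f)).IsLeftAdjoint := by
  let e : ovr J A ⋙ Over.map ((Functor.const J).map f) ≅
      (Functor.whiskeringRight J _ _).obj (Over.map f) ⋙ ovr J B :=
    NatIso.ofComponents (fun F => Over.isoMk (Iso.refl _) (Category.id_comp _)) fun α =>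
      Over.OverMorphism.ext ((Category.comp_id _).trans (Category.id_comp _).symm)
  have a1 := ((ovr J A).asEquivalence.toAdjunction.comp
    (Over.mapPullbackAdj ((Functor.const J).map f))).ofNatIsoLeft e
  have a2 := ((Over.mapPullbackAdj f).whiskerRight J).comp (ovr J B).asEquivalence.toAdjunction
  have h1 := ((Adjunction.ofIsLeftAdjoint (Over.pullback f)).whiskerRight J).isLeftAdjoint
  have h2 : (Over.pullback ((Functor.const J).map f) ⋙
      (ovr J A).asEquivalence.inverse).IsLeftAdjoint :=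
    Functor.isLeftAdjoint_of_iso (a2.rightAdjointUniq a1)
  exact (Functor.isLeftAdjoint_comp_iff_left _ _).1 h2

end

variable {D : Type 1} [Category.{0} D] {c : SSet.{0} ⥤ D} {N : D ⥤ SSet.{0}}
  (H : Type) [Group H]

/-- adjunct of an equivariant map out of an object with trivial action -/
noncomputable def trH (adj : c ⊣ N) {K : SSet.{0}} {X : SingleObj H ⥤ D}
    (f : (c ⋙ Functor.const _).obj K ⟶ X) : K ⟶ (act H N ⋙ lim).obj X :=
  fl (K := X ⋙ N) (adj.homEquiv _ _ (f.app (st H))) fun h =>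
    (adj.homEquiv_naturality_right _ _).symm.trans
      (congrArg _ ((f.naturality h).symm.trans (Category.id_comp _)))

theorem trH_ι (adj : c ⊣ N) {K : SSet.{0}} {X : SingleObj H ⥤ D}
    (f : (c ⋙ Functor.const _).obj K ⟶ X) :
    trH H adj f ≫ fι (X ⋙ N) = adj.homEquiv _ _ (f.app (st H)) := fl_ι (K := X ⋙ N) _ _

/-- the fixed point nerve and its left adjoint -/
noncomputable def adjH (adj : c ⊣ N) : c ⋙ Functor.const (SingleObj H) ⊣ act H N ⋙ lim :=
  Adjunction.mkOfHomEquiv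
  { homEquiv K X :=
      { toFun := trH H adj
        invFun g :=
          { app _ := (adj.homEquiv _ _).symm (g ≫ fι (X ⋙ N))
            naturality _ _ h := (Category.id_comp _).trans (Eq.symm
              ((adj.homEquiv_naturality_right_symm _ _).symm.trans (congrArg _
                ((Category.assoc _ _ _).trans (congrArg _ (fι_act (X ⋙ N) h)))))) }
        left_inv f := NatTrans.ext (funext fun _ =>
          (congrArg _ (trH_ι H adj f)).trans (Equiv.symm_apply_apply _ _))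
        right_inv g := (cancel_mono (fι (X ⋙ N))).1
          ((trH_ι H adj _).trans (Equiv.apply_symm_apply _ _)) }
    homEquiv_naturality_left_symm f g := NatTrans.ext (funext fun _ =>
      (congrArg _ (Category.assoc _ _ _)).trans (adj.homEquiv_naturality_left_symm _ _))
    homEquiv_naturality_right {K X Y} f g := by
      refine (cancel_mono (fι (Y ⋙ N))).1 ((trH_ι H adj (f ≫ g)).trans (Eq.symm ?_))
      refine (Category.assoc _ _ _).trans ((congrArg _ (fι_nat ((act H N).map g))).trans ?_)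
      refine (Category.assoc _ _ _).symm.trans ?_
      exact (congrArg (· ≫ _) (trH_ι H adj f)).trans (adj.homEquiv_naturality_right _ _).symm }

theorem adjH_ι (adj : c ⊣ N) {K : SSet.{0}} {X : SingleObj H ⥤ D}
    (f : (c ⋙ Functor.const _).obj K ⟶ X) :
    (adjH H adj).homEquiv _ _ f ≫ fι (X ⋙ N) = adj.homEquiv _ _ (f.app (st H)) := by
  rw [adjH, Adjunction.mkOfHomEquiv_homEquiv]
  exact trH_ι H adj f

theorem isIso_unitH (adj : c ⊣ N) (K : SSet.{0}) (h : IsIso (adj.unit.app K)) :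
    IsIso ((adjH H adj).unit.app K) := by
  have e := adjH_ι H adj (𝟙 ((c ⋙ Functor.const _).obj K))
  rw [Adjunction.homEquiv_id] at e
  have e' := e.trans (adj.homEquiv_id K)
  have := isIso_fι ((c ⋙ Functor.const (SingleObj H)).obj K ⋙ N) fun _ => N.map_id _
  exact IsIso.of_isIso_fac_right e'

/-- functorial cylinders -/
structure FCyl (N : D ⥤ SSet.{0}) where
  Γ : D ⥤ D
  θ : ∀ Z, N.obj (Γ.obj Z) ⊗ Δ[1] ⟶ N.obj Z
  e₀ : Γ ⟶ 𝟭 D
  e₁ : Γ ⟶ 𝟭 D
  s : 𝟭 D ⟶ Γ
  nat : ∀ {Z Z'} (f : Z ⟶ Z'), N.map (Γ.map f) ▷ Δ[1] ≫ θ Z' = θ Z ≫ N.map f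
  inj : ∀ Z {K : SSet.{0}} (k k' : K ⟶ N.obj (Γ.obj Z)), k ▷ Δ[1] ≫ θ Z = k' ▷ Δ[1] ≫ θ Z → k = k'
  h₀ : ∀ Z, N.map (e₀.app Z) = SSet.ι₀ ≫ θ Z
  h₁ : ∀ Z, N.map (e₁.app Z) = SSet.ι₁ ≫ θ Z
  s₀ : ∀ Z, s.app Z ≫ e₀.app Z = 𝟙 Z
  s₁ : ∀ Z, s.app Z ≫ e₁.app Z = 𝟙 Z
  triv : ∀ Z, N.map (s.app Z) ▷ Δ[1] ≫ θ Z = fst _ _
  gray : ∀ Z {L L' : Type} [PartialOrder L] [PartialOrder L'] [Finite L] [Finite L']
      (f₀ f₁ : L →o L') (h : f₀ ≤ f₁)
      (_ : ∀ l l' : L, l < l' → f₀ l = f₁ l ∨ f₁ l = f₁ l') (g : nerve L' ⟶ N.obj Z),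
      ∃ k : nerve L ⟶ N.obj (Γ.obj Z), k ▷ Δ[1] ≫ θ Z = nvHomotopy f₀ f₁ h ≫ g

theorem axH [HasPullbacks D] [HasInitial D] {adj : c ⊣ N} (hA : ModelAxioms adj) (C : FCyl N) :
    ModelAxioms (adjH H adj) where
  unit_empty := isIso_unitH H adj _ hA.unit_empty
  terminal_zero := ⟨evaluationJointlyReflectsLimits _ fun _ =>
    (isLimitMapConeEmptyConeEquiv _ _).2 hA.terminal_zero.some⟩
  strict f := ⟨evaluationJointlyReflectsColimits _ fun j =>
    (isColimitMapCoconeEmptyCoconeEquiv _ _).2 (hA.strict (f.app j)).some⟩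
  unit_zero := isIso_unitH H adj _ hA.unit_zero
  unit_one := isIso_unitH H adj _ hA.unit_one
  fiber_simplex m f ε _ k k' sq := (hA.fiber_simplex m f ε k k' sq).map (Functor.const _)
  exponentiable ε := expo_const _ (hA.exponentiable ε)
  cyl Z := by
    let ι := fι (Z ⋙ N)
    let κ := fι ((Z ⋙ C.Γ) ⋙ N)
    have hκ : ∀ h : st H ⟶ st H, κ ≫ N.map (C.Γ.map (Z.map h)) = κ := fι_act ((Z ⋙ C.Γ) ⋙ N)
    have hι : ∀ h : st H ⟶ st H, ι ≫ N.map (Z.map h) = ι := fι_act (Z ⋙ N)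
    let θ : lim.obj ((Z ⋙ C.Γ) ⋙ N) ⊗ Δ[1] ⟶ lim.obj (Z ⋙ N) :=
      fl (K := Z ⋙ N) (κ ▷ Δ[1] ≫ C.θ _) fun h => by
        change (_ ≫ _) ≫ N.map (Z.map h) = _
        rw [Category.assoc, ← C.nat, ← comp_whiskerRight_assoc, hκ]
    have hθ : θ ≫ ι = κ ▷ Δ[1] ≫ C.θ _ := fl_ι (K := Z ⋙ N) _ _
    have hθ' : ∀ {K : SSet.{0}} (k : K ⟶ lim.obj ((Z ⋙ C.Γ) ⋙ N)),
        (k ▷ Δ[1] ≫ θ) ≫ ι = (k ≫ κ) ▷ Δ[1] ≫ C.θ _ := fun k => by
      rw [Category.assoc, hθ, comp_whiskerRight_assoc]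
    refine ⟨Z ⋙ C.Γ, θ, ⟨fun _ => C.e₀.app _, fun _ _ _ => C.e₀.naturality _⟩,
      ⟨fun _ => C.e₁.app _, fun _ _ _ => C.e₁.naturality _⟩, fun k k' e => ?_, ?_, ?_,
      fun {X} f => ⟨f ≫ ⟨fun _ => C.s.app _, fun _ _ _ => C.s.naturality _⟩, ?_, ?_, ?_⟩,
      fun {L L'} _ _ _ _ f₀ f₁ h hc g => ?_⟩
    · exact (cancel_mono κ).1 (C.inj _ _ _ ((hθ' k).symm.trans
        ((congrArg (· ≫ ι) e).trans (hθ' k'))))
    · refine (cancel_mono ι).1 ((fι_nat _).trans ?_)
      change κ ≫ N.map (C.e₀.app _) = (SSet.ι₀ ≫ θ) ≫ ι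
      rw [C.h₀, Category.assoc, hθ, SSet.ι₀_comp_assoc]
    · refine (cancel_mono ι).1 ((fι_nat _).trans ?_)
      change κ ≫ N.map (C.e₁.app _) = (SSet.ι₁ ≫ θ) ≫ ι
      rw [C.h₁, Category.assoc, hθ, SSet.ι₁_comp_assoc]
    · exact NatTrans.ext (funext fun j => (Category.assoc _ _ _).trans
        ((congrArg _ (C.s₀ _)).trans (Category.comp_id _)))
    · exact NatTrans.ext (funext fun j => (Category.assoc _ _ _).trans
        ((congrArg _ (C.s₁ _)).trans (Category.comp_id _)))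
    · refine (cancel_mono ι).1 ((hθ' _).trans ?_)
      refine (congrArg (fun k => k ▷ Δ[1] ≫ C.θ _) (fι_nat _)).trans (Eq.symm ?_)
      refine (Category.assoc _ _ _).trans ((congrArg _ (fι_nat _)).trans ?_)
      change fst _ _ ≫ fι (X ⋙ N) ≫ N.map (f.app (st H)) =
        (fι (X ⋙ N) ≫ N.map (f.app (st H) ≫ C.s.app _)) ▷ Δ[1] ≫ C.θ _
      rw [N.map_comp, ← Category.assoc (fι _), comp_whiskerRight_assoc, C.triv]
      exact (whiskerRight_fst _ _).symm
    · obtain ⟨k, hk⟩ := C.gray _ f₀ f₁ h hc (g ≫ ι)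
      have hf : ∀ a : st H ⟶ st H, k ≫ N.map (C.Γ.map (Z.map a)) = k := fun a => C.inj _ _ _ (by
        rw [comp_whiskerRight_assoc, C.nat, reassoc_of% hk, hι, hk])
      refine ⟨fl (K := (Z ⋙ C.Γ) ⋙ N) k hf, (cancel_mono ι).1 ((hθ' _).trans ?_)⟩
      rw [fl_ι, hk, Category.assoc]

/-- the path object functor -/
noncomputable def gam (n : ℕ∞) : P213.NCat.{0} n ⥤ P213.NCat.{0} n where
  obj Z := ⟨GammaCat Z.obj, Gamma.isN Z.property⟩
  map f := ObjectProperty.homMk (Gamma.map f.hom)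
  map_id _ := rfl
  map_comp _ _ := rfl

theorem unc_nat {Z Z' : OmegaCat.{0}} (f : Z ⟶ Z') {m : ℕ}
    (s : (streetNerve.obj (GammaCat Z)).obj (.op ⦋m⦌)) :
    unc ((streetNerve.map (show GammaCat Z ⟶ GammaCat Z' from Gamma.map f)).app _ s) =
      OmegaFun.comp f (unc s) := by
  have h : sOf ((streetNerve.map (show GammaCat Z ⟶ GammaCat Z' from Gamma.map f)).app _ s) =
      Gamma.curry (OmegaFun.comp f (unc s)) := by
    change (Gamma.map f).comp (sOf s) = _
    rw [← curry_unc s]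
    rfl
  rw [unc, h, Gamma.uncurry_curry]

/-- the functorial cylinder of strict `n`-categories -/
noncomputable def fcyl (n : ℕ∞) : FCyl (nerveN n) where
  Γ := gam n
  θ Z := thetaS Z.obj
  e₀ := ⟨fun _ => ObjectProperty.homMk Gamma.src,
    fun _ _ f => ObjectProperty.hom_ext _ (Gamma.pend_map f.hom false)⟩
  e₁ := ⟨fun _ => ObjectProperty.homMk Gamma.tgt,
    fun _ _ f => ObjectProperty.hom_ext _ (Gamma.pend_map f.hom true)⟩
  s := ⟨fun _ => ObjectProperty.homMk (Gamma.triv _), 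
    fun _ _ f => ObjectProperty.hom_ext _ (Gamma.map_triv f.hom).symm⟩
  nat f := by
    ext m p
    exact congrArg (fun F => OmegaFun.comp F _) (unc_nat (m := m.unop.len) f.hom p.1)
  inj _ _ k k' h := thetaS_inj k k' h
  h₀ _ := map_src
  h₁ _ := map_tgt
  s₀ _ := ObjectProperty.hom_ext _ Gamma.src_triv
  s₁ _ := ObjectProperty.hom_ext _ Gamma.tgt_triv
  triv Z := (triv_theta (𝟙 Z.obj)).trans
    ((congrArg _ (streetNerve.map_id _)).trans (Category.comp_id _))
  gray _ _ _ _ _ _ _ f₀ f₁ h hc g := prism_theta f₀ f₁ h hc g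

end Vale.Agent.N213E
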