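import Vale.Agent.N213.Glue

/-! # The objects functor preserves colimits; sieve inclusions are full on vertices -/

open CategoryTheory Limits Simplicial Opposite

namespace Vale.Agent.N213E

section

open Vale.Agent.P213 OmegaStr

/-- the codiscrete category -/
def Cod (S : Type) : Type := S × S

instance (S : Type) : OmegaStr (Cod S) where
  d a k p := Nat.casesOn k (cond a (p.2, p.2) (p.1, p.1)) fun _ => p
  comp k x y _ := Nat.casesOn k (x.1, y.2) fun _ => x
  finite_dim _ := ⟨1, rfl⟩
  d_d_of_lt a b m n x h := by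
    obtain ⟨n, rfl⟩ := Nat.exists_eq_succ_of_ne_zero (Nat.zero_lt_of_lt h).ne'
    rfl
  d_d_of_le a b m n x h := by
    rcases m with _ | m
    · obtain rfl := Nat.le_zero.1 h
      cases a <;> cases b <;> rfl
    · rfl
  src_comp n x y h := by cases n <;> rfl
  tgt_comp n x y h := by
    cases n
    · rfl
    · exact h
  d_comp a m n x y h h' l := by
    obtain ⟨m, rfl⟩ := Nat.exists_eq_succ_of_ne_zero (Nat.zero_lt_of_lt l).ne'
    rfl
  id_comp n x h := by cases n <;> rfl
  comp_id n x h := by cases n <;> rfl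
  assoc n x y z _ _ _ _ := by cases n <;> rfl
  interchange m n x y z w l _ _ _ _ _ _ := by
    obtain ⟨n, rfl⟩ := Nat.exists_eq_succ_of_ne_zero (Nat.zero_lt_of_lt l).ne'
    rfl

variable {n : ℕ∞}

/-- the codiscrete `n`-category -/
def cod (hn : 1 ≤ n) (S : Type) : NCat.{0} n := ⟨OmegaCat.mk (Cod S), fun k hk x => by
  have h : 1 ≤ k := by exact_mod_cast hn.trans hk
  obtain ⟨k, rfl⟩ := Nat.exists_eq_succ_of_ne_zero (Nat.zero_lt_of_lt h).ne'
  rfl⟩

/-- the end points of a cell -/
def en (X : NCat.{0} n) (a : Bool) (x : X.obj.carrier) : (cellsFun n 0).obj X :=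
  ⟨d a 0 x, d_d_of_le _ _ _ _ _ le_rfl⟩

/-- functors to a codiscrete category -/
def toCod (hn : 1 ≤ n) {X : NCat.{0} n} {S : Type} (g : (cellsFun n 0).obj X ⟶ S) :
    X ⟶ cod hn S := ObjectProperty.homMk
  { toFun x := (g (en X false x), g (en X true x))
    map_d a k x := by
      rcases k with _ | k
      · have h : ∀ b, en X b (d a 0 x) = en X a x := fun b =>
          Subtype.ext (d_d_of_le _ _ _ _ _ le_rfl)
        rw [h, h]
        cases a <;> rfl
      · have h : ∀ b, en X b (d a (k + 1) x) = en X b x := fun b =>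
          Subtype.ext (d_d_of_lt _ _ _ _ _ k.succ_pos)
        rw [h, h]
        rfl
    map_comp k x y h h' := by
      rcases k with _ | k
      · rw [show en X false (comp 0 x y h) = en X false x from Subtype.ext (src_comp _ _ _ _),
          show en X true (comp 0 x y h) = en X true y from Subtype.ext (tgt_comp _ _ _ _)]
        rfl
      · have e : ∀ b, en X b (comp (k + 1) x y h) = en X b x := fun b => Subtype.ext
          ((d_d_of_lt _ false _ _ _ k.succ_pos).symm.trans
            ((congrArg _ (src_comp _ _ _ _)).trans (d_d_of_lt _ _ _ _ _ k.succ_pos)))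
        rw [e, e]
        rfl }

theorem cellsFun_left (hn : 1 ≤ n) : (cellsFun.{0} n 0).IsLeftAdjoint :=
  (Adjunction.adjunctionOfEquivRight (G_obj := cod hn) (fun X S =>
    { toFun := toCod hn
      invFun φ := TypeCat.ofHom fun x => (φ.hom.toFun x.1).1
      left_inv g := by
        ext x
        exact congrArg g (Subtype.ext x.2)
      right_inv φ := ObjectProperty.hom_ext _ (OmegaFun.ext fun x => by
        have h := fun a => congrArg (fun p : Cod S => p.1) (φ.hom.map_d a 0 x)
        exact Prod.ext (h false) (h true)) })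
    fun X' X S f g => ObjectProperty.hom_ext _ (OmegaFun.ext fun x =>
      Prod.ext (congrArg g (Subtype.ext (f.hom.map_d false 0 x)))
        (congrArg g (Subtype.ext (f.hom.map_d true 0 x))))).isLeftAdjoint

end

open Vale.Agent.P213Z.G Vale.Agent.N213

variable {n : ℕ∞}

instance : HasColimitsOfSize.{0, 0} (NCat n) :=
  Adjunction.has_colimits_of_equivalence (globN n).inv

instance : HasLimitsOfSize.{0, 0} (NCat n) :=
  Adjunction.has_limits_of_equivalence (globN n).inv

instance : PreservesFilteredColimitsOfSize.{0, 0} (nerve n) :=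
  ⟨fun _ _ _ => preservesColimitsOfShape_of_natIso (invIso n)⟩

theorem cells_left (hn : 1 ≤ n) : (cells n 0).IsLeftAdjoint :=
  have := cellsFun_left hn
  Functor.isLeftAdjoint_of_iso (cellsIso n 0)

/-- A simplex whose vertices lie in a sieve lies in the sieve. -/
theorem exists_simplex {X Y : NCat n} (j : X ⟶ Y) (hj : sv n j) {m : ℕ} (σ : Fun (Orn m) Y.obj)
    (hσ : ∀ i, σ.f 0 (vx i) ∈ Set.range (j.hom.f 0)) : ∃ τ : Fun (Orn m) X.obj, τ.mul j.hom = σ := by
  have h0 : ∀ z : Cell m 0, σ.f 0 z ∈ Set.range (j.hom.f 0) := fun z => by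
    obtain ⟨i, rfl⟩ := exists_vx z
    exact hσ i
  have h : ∀ k (z : (Orn m).C k), σ.f k z ∈ Set.range (j.hom.f k) := fun k z => by
    rcases Nat.eq_zero_or_pos k with rfl | hk
    · exact h0 z
    · exact (hj k).2 hk _ (σ.2.1 true 0 k hk z ▸ h0 _)
  choose τ hτ using h
  refine ⟨⟨τ, fun a l k h z => (hj l).1 ?_, fun l k h z => (hj k).1 ?_,
    fun l k h x y p q => (hj k).1 ?_⟩, Fun.ext hτ⟩
  · rw [hτ, j.hom.2.1, hτ, σ.2.1]
  · rw [hτ, j.hom.2.2.1, hτ, σ.2.2.1]
  · have q' : Y.obj.d true h (σ.f k x) = Y.obj.d false h (σ.f k y) := by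
      rw [← σ.2.1, ← σ.2.1, p]
    rw [hτ, j.hom.2.2.2 _ _ _ _ _ _ (by rw [hτ, hτ, q']), σ.2.2.2 _ _ _ _ _ _ q']
    exact Y.obj.cmp_congr h (hτ _ _).symm (hτ _ _).symm _ _

end Vale.Agent.N213E
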