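import Vale.Agent.P213Z.DefsB
import Mathlib.CategoryTheory.SingleObj
import Mathlib.CategoryTheory.Adjunction.Whiskering

/-! Statement-level definitions: objects with a group action and their fixed points. -/

open CategoryTheory Limits SSet.modelCategoryQuillen Vale.Agent.P213Z.G

namespace Vale.Agent.N213E

variable {G : Type} [Group G] {D E : Type 1} [Category.{0} D] [Category.{0} E]

/-- A functor applied to objects with an action of `G`. -/
abbrev act (G : Type) [Group G] (F : D ⥤ E) : (SingleObj G ⥤ D) ⥤ (SingleObj G ⥤ E) :=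
  (Functor.whiskeringRight _ _ _).obj F

/-- The `H`-fixed points of a simplicial set with an action of `G`: the limit of the action
restricted to `H`. -/
noncomputable def fix (H : Subgroup G) : (SingleObj G ⥤ SSet.{0}) ⥤ SSet.{0} :=
  (Functor.whiskeringLeft _ _ _).obj H.subtype.toFunctor ⋙ lim

/-- The equivariant maps whose `H`-fixed points lie in `P` for all `H` in `𝓕`. -/
def onFix (𝓕 : Set (Subgroup G)) (P : MorphismProperty SSet.{0}) :
    MorphismProperty (SingleObj G ⥤ SSet.{0}) := fun _ _ f => ∀ H ∈ 𝓕, P ((fix H).map f)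

/-- Equivariant cofibrations of simplicial sets. -/
def sC (𝓕 : Set (Subgroup G)) : MorphismProperty (SingleObj G ⥤ SSet.{0}) :=
  (onFix 𝓕 J.rlp ⊓ onFix 𝓕 weq).llp

variable (𝓕 : Set (Subgroup G)) (N : D ⥤ SSet.{0})

/-- Equivariant Thomason weak equivalences. -/
def gW : MorphismProperty (SingleObj G ⥤ D) := (onFix 𝓕 weq).inverseImage (act G N)

/-- Equivariant Thomason fibrations. -/
def gF : MorphismProperty (SingleObj G ⥤ D) :=
  (onFix 𝓕 J.rlp).inverseImage (act G (N ⋙ SSet.ex ⋙ SSet.ex))

/-- Equivariant Thomason cofibrations. -/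
def gC : MorphismProperty (SingleObj G ⥤ D) := (gF 𝓕 N ⊓ gW 𝓕 N).llp

/-- Quillen equivalences: the left adjoint preserves cofibrations and trivial cofibrations, and
a map `L K ⟶ Y` is a weak equivalence iff its adjunct is one. -/
def IsQE {L : D ⥤ E} {R : E ⥤ D} (adj : L ⊣ R) (cof w : MorphismProperty D)
    (cof' w' : MorphismProperty E) : Prop :=
  (∀ K K' (i : K ⟶ K'), cof i → cof' (L.map i) ∧ (w i → w' (L.map i))) ∧
  ∀ K Y (f : L.obj K ⟶ Y), w' f ↔ w (adj.unit.app K ≫ R.map f)

end Vale.Agent.N213E
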