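import Vale.Agent.N213E.Defs
import Vale.Agent.P213.Bdl.B14

/-! # Fixed points of simplicial sets with a group action -/

open CategoryTheory Limits Simplicial Opposite

namespace Vale.Agent.N213E

variable {H : Type} [Group H]

/-- the unique object -/
abbrev st (H : Type) [Group H] : SingleObj H := SingleObj.star H

section

variable {C : Type 1} [Category.{0} C] [HasLimitsOfShape (SingleObj H) C]

/-- inclusion of the fixed points -/
noncomputable def fι (K : SingleObj H ⥤ C) : lim.obj K ⟶ K.obj (st H) := limit.π K (st H)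

instance (K : SingleObj H ⥤ C) : Mono (fι K) :=
  ⟨fun _ _ e => limit.hom_ext fun _ => e⟩

@[reassoc]
theorem fι_act (K : SingleObj H ⥤ C) (h : st H ⟶ st H) : fι K ≫ K.map h = fι K := limit.w K h

@[reassoc]
theorem fι_nat {K L : SingleObj H ⥤ C} (f : K ⟶ L) :
    lim.map f ≫ fι L = fι K ≫ f.app (st H) := limMap_π f (st H)

/-- lift to the fixed points -/
noncomputable def fl {K : SingleObj H ⥤ C} {T : C} (k : T ⟶ K.obj (st H))
    (hk : ∀ h : st H ⟶ st H, k ≫ K.map h = k) : T ⟶ lim.obj K :=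
  limit.lift K ⟨T, fun _ => k, fun _ _ h => (Category.id_comp _).trans (hk h).symm⟩

@[reassoc]
theorem fl_ι {K : SingleObj H ⥤ C} {T : C} (k : T ⟶ K.obj (st H))
    (hk : ∀ h : st H ⟶ st H, k ≫ K.map h = k) : fl k hk ≫ fι K = k := limit.lift_π _ _

theorem isIso_fι (K : SingleObj H ⥤ C) (hK : ∀ h : st H ⟶ st H, K.map h = 𝟙 _) :
    IsIso (fι K) :=
  ⟨fl (𝟙 _) fun h => by rw [hK, Category.id_comp], by
    rw [← cancel_mono (fι K), Category.assoc, fl_ι, Category.comp_id, Category.id_comp],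
    fl_ι _ _⟩

/-- the equivariant inclusion of the fixed points -/
noncomputable def fε (K : SingleObj H ⥤ C) : (Functor.const _).obj (lim.obj K) ⟶ K where
  app _ := fι K
  naturality _ _ h := (Category.id_comp _).trans (fι_act K h).symm

theorem fε_nat {K L : SingleObj H ⥤ C} (f : K ⟶ L) :
    (Functor.const _).map (lim.map f) ≫ fε L = fε K ≫ f :=
  NatTrans.ext (funext fun _ => fι_nat f)

instance (K : SingleObj H ⥤ C) : Mono (fε K) := by
  have : ∀ j, Mono ((fε K).app j) := fun _ => inferInstanceAs (Mono (fι K))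
  exact NatTrans.mono_of_mono_app _

instance (K : SingleObj H ⥤ C) : IsIso (lim.map (fε K)) := by
  have h1 := isIso_fι ((Functor.const (SingleObj H)).obj (lim.obj K)) fun _ => rfl
  have h2 : lim.map (fε K) = fι ((Functor.const (SingleObj H)).obj (lim.obj K)) := by
    rw [← cancel_mono (fι K)]
    exact fι_nat (fε K)
  rw [h2]
  exact h1

end

theorem inj_app {A B : SSet.{0}} (f : A ⟶ B) [Mono f] (n : SimplexCategoryᵒᵖ) :
    Function.Injective (f.app n) := (mono_iff_injective _).1 inferInstance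

theorem app_comp {A B C : SSet.{0}} {f : A ⟶ B} {g : B ⟶ C} {k : A ⟶ C} (e : f ≫ g = k)
    (n : SimplexCategoryᵒᵖ) (x : A.obj n) : g.app n (f.app n x) = k.app n x := by
  rw [← e]
  rfl

theorem act_fι {K : SingleObj H ⥤ SSet.{0}} (h : st H ⟶ st H) (n) (x : (lim.obj K).obj n) :
    (K.map h).app n ((fι K).app n x) = (fι K).app n x := app_comp (fι_act K h) n x

theorem exists_fι {K : SingleObj H ⥤ SSet.{0}} {n} (x : (K.obj (st H)).obj n)
    (hx : ∀ h : st H ⟶ st H, (K.map h).app n x = x) : ∃ y, (fι K).app n y = x := by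
  obtain ⟨n⟩ := n
  refine ⟨SSet.yonedaEquiv (fl (SSet.yonedaEquiv.symm x) fun h => ?_), ?_⟩
  · rw [SSet.yonedaEquiv_symm_comp, hx]
  · rw [← SSet.yonedaEquiv_comp, fl_ι, Equiv.apply_symm_apply]

theorem fι_app {K L : SingleObj H ⥤ SSet.{0}} (f : K ⟶ L) (n) (x : (lim.obj K).obj n) :
    (fι L).app n ((lim.map f).app n x) = (f.app (st H)).app n ((fι K).app n x) :=
  (app_comp (fι_nat f) n x).trans rfl

theorem nat_app {K L : SingleObj H ⥤ SSet.{0}} (f : K ⟶ L) (h : st H ⟶ st H) (n)
    (x : (K.obj (st H)).obj n) :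
    (L.map h).app n ((f.app (st H)).app n x) = (f.app (st H)).app n ((K.map h).app n x) :=
  (app_comp (f.naturality h).symm n x).trans rfl

theorem mono_st {K L : SingleObj H ⥤ SSet.{0}} (f : K ⟶ L) [Mono f] : Mono (f.app (st H)) :=
  inferInstance

/-- a fixed simplex in the image of a monomorphism comes from the fixed points -/
theorem exists_lim {K L : SingleObj H ⥤ SSet.{0}} (f : K ⟶ L) [Mono (f.app (st H))] {n}
    (y : (lim.obj L).obj n) (x) (hx : (f.app (st H)).app n x = (fι L).app n y) :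
    ∃ z, (lim.map f).app n z = y ∧ (fι K).app n z = x := by
  obtain ⟨z, rfl⟩ := exists_fι x fun h => inj_app (f.app (st H)) n (by
    rw [← nat_app, hx, act_fι])
  exact ⟨z, inj_app (fι L) n (by rw [fι_app, hx]), rfl⟩

theorem mono_lim {K L : SingleObj H ⥤ SSet.{0}} (f : K ⟶ L) [Mono (f.app (st H))] :
    Mono (lim.map f) := mono_of_mono_fac (fι_nat f)

theorem isIso_lim {K L : SingleObj H ⥤ SSet.{0}} (f : K ⟶ L) [Mono (f.app (st H))]
    (hf : ∀ n (y : (lim.obj L).obj n), ∃ x, (f.app (st H)).app n x = (fι L).app n y) :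
    IsIso (lim.map f) := by
  have := mono_lim f
  rw [NatTrans.isIso_iff_isIso_app]
  intro n
  rw [isIso_iff_bijective]
  refine ⟨inj_app _ n, fun y => ?_⟩
  obtain ⟨x, hx⟩ := hf n y
  obtain ⟨z, hz, -⟩ := exists_lim f y x hx
  exact ⟨z, hz⟩

/-- Fixed points commute with filtered colimits of monomorphisms. -/
theorem lim_chain {J : Type} [SmallCategory J] [IsFiltered J] (F : J ⥤ SingleObj H ⥤ SSet.{0})
    (hF : ∀ i j (u : i ⟶ j), Mono ((F.map u).app (st H))) : PreservesColimit F lim := by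
  refine ⟨fun {c} hc => ⟨evaluationJointlyReflectsColimits _ fun n => ?_⟩⟩
  have hc' := isColimitOfPreserves ((evaluation _ _).obj (st H) ⋙ (evaluation _ _).obj n) hc
  have hi : ∀ j, Mono ((c.ι.app j).app (st H)) := fun j =>
    P213.CAPoset.mono_of_injective_app _ fun m x y e => by
      obtain ⟨k, u, hu⟩ := (Types.FilteredColimit.isColimit_eq_iff' (isColimitOfPreserves
        ((evaluation _ _).obj (st H) ⋙ (evaluation _ _).obj m) hc) x y).1 e
      exact inj_app ((F.map u).app (st H)) m hu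
  refine Types.FilteredColimit.isColimitOf' _ _ (fun x => ?_) fun j x y e => ?_
  · obtain ⟨j, y, hy⟩ := Types.jointly_surjective_of_isColimit hc' ((fι c.pt).app n x)
    obtain ⟨z, hz, -⟩ := exists_lim (c.ι.app j) x y hy
    exact ⟨j, z, hz.symm⟩
  · have := mono_lim (c.ι.app j)
    exact ⟨j, 𝟙 j, congrArg _ (inj_app (lim.map (c.ι.app j)) n e)⟩

theorem ext_off {X₁ X₂ X₃ X₄ : Type} {t : X₁ ⟶ X₂} {l : X₁ ⟶ X₃} {r : X₂ ⟶ X₄} {b : X₃ ⟶ X₄}
    (sq : IsPushout t l r b) (ht : Function.Injective t) {x y : X₂} (hx : x ∉ Set.range t)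
    (e : r x = r y) : x = y := by
  have h1 := IsPushout.isColimit sq
  let φ := h1.coconePointUniqueUpToIso (Types.Pushout.isColimitCocone t l)
  have h2 : ∀ z, φ.hom (r z) = Types.Pushout.inl t l z := fun z =>
    ConcreteCategory.congr_hom (h1.comp_coconePointUniqueUpToIso_hom
      (Types.Pushout.isColimitCocone t l) WalkingSpan.left) z
  have h3 : Types.Pushout.inl t l x = Types.Pushout.inl t l y := by rw [← h2, ← h2, e]
  have : Mono t := (mono_iff_injective _).2 ht
  rcases (Types.Pushout.inl_rel'_inl_iff _ _ _ _).1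
    ((Types.Pushout.quot_mk_eq_iff t l _ _).1 h3) with h3 | ⟨a, -, -, h4, -⟩
  · exact h3
  · exact absurd ⟨a, h4.symm⟩ hx

/-- Fixed points commute with pushouts along monomorphisms. -/
theorem isPushout_lim {K L X P : SingleObj H ⥤ SSet.{0}} {i : K ⟶ L} {a : K ⟶ X} {b : L ⟶ P}
    {j : X ⟶ P} (sq : IsPushout i a b j) [Mono i] :
    IsPushout (lim.map i) (lim.map a) (lim.map b) (lim.map j) := by
  have sq₀ := sq.map ((evaluation _ _).obj (st H))
  have hi := mono_st i
  have hj : Mono (j.app (st H)) := P213.AS.mono_of_isPushout sq₀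
  have hj' := mono_lim j
  refine ⟨⟨by rw [← lim.map_comp, sq.w, lim.map_comp]⟩, ⟨evaluationJointlyReflectsColimits _
    fun n => (isColimitMapCoconePushoutCoconeEquiv _ _).2 (IsPushout.isColimit ?_)⟩⟩
  have sn := sq₀.map ((evaluation _ _).obj n)
  have hin := inj_app (i.app (st H)) n
  have : Mono (((evaluation _ _).obj n).map (lim.map j)) := inferInstanceAs (Mono ((lim.map j).app n))
  refine (Types.isPushout_of_isPullback_of_mono' ?_ ?_ ?_).flip
  · rw [Types.isPullback_iff]
    refine ⟨by rw [← Functor.map_comp, ← lim.map_comp, ← sq.w, lim.map_comp, Functor.map_comp],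
      fun x y e => ?_, fun x y e => ?_⟩
    · have := mono_lim i
      exact inj_app (lim.map i) n e.2
    · obtain ⟨z, h1, h2⟩ := ((Types.isPullback_iff _ _ _ _).1
        (Types.isPullback_of_isPushout sn hin)).2.2 ((fι L).app n y) ((fι X).app n x)
        ((fι_app b n y).symm.trans ((congrArg _ e.symm).trans (fι_app j n x)))
      obtain ⟨w, h3, rfl⟩ := exists_lim i y z h1
      exact ⟨w, inj_app (fι X) n ((fι_app a n w).trans h2), h3⟩
  · refine Set.eq_univ_of_forall fun p => ?_
    rcases Types.eq_or_eq_of_isPushout' sn.flip ((fι P).app n p) with ⟨x, hx⟩ | ⟨y, hy, hy'⟩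
    · obtain ⟨z, hz, -⟩ := exists_lim j p x hx
      exact Or.inl ⟨z, hz⟩
    · obtain ⟨z, rfl⟩ := exists_fι y fun h => (ext_off sn hin hy'
        (hy.trans ((act_fι h n p).symm.trans ((congrArg _ hy.symm).trans (nat_app b h n y))))).symm
      exact Or.inr ⟨z, inj_app (fι P) n ((fι_app b n z).trans hy)⟩
  · intro x y hx _ e
    refine inj_app (fι L) n (ext_off sn hin ?_
      ((fι_app b n x).symm.trans ((congrArg _ e).trans (fι_app b n y))))
    rintro ⟨z, hz⟩
    obtain ⟨w, hw, -⟩ := exists_lim i x z hz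
    exact hx ⟨w, hw⟩

end Vale.Agent.N213E
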