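import Vale.Agent.N213.Gen

/-! # Transfer along a family of adjunctions -/

open CategoryTheory Limits Simplicial MorphismProperty SSet.modelCategoryQuillen Opposite

namespace Vale.Agent.N213E

open Vale.Agent.P213 Vale.Agent.P213.AS

variable {D : Type 1} [Category.{0} D]

/-- `R` preserves the colimits of chains of maps in `M` -/
def Pres {E : Type 1} [Category.{0} E] (M : MorphismProperty D) (R : D ⥤ E) : Prop :=
  ∀ (J : Type) [LinearOrder J] [Nonempty J] (F : J ⥤ D), (∀ i j (u : i ⟶ j), M (F.map u)) →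
    PreservesColimit F R

variable {M : MorphismProperty D}

theorem Pres.comp {E E' : Type 1} [Category.{0} E] [Category.{0} E'] {R : D ⥤ E} (h : Pres M R)
    (S : E ⥤ E') [PreservesFilteredColimitsOfSize.{0, 0} S] : Pres M (R ⋙ S) := fun J _ _ F hF =>
  have := h J F hF
  inferInstance

theorem Pres.coy {L : SSet.{0} ⥤ D} {R : D ⥤ SSet.{0}} (h : Pres M R) (adj : L ⊣ R)
    (K : SSet.{0}) [IsFinitelyPresentable.{0} K] : Pres M (coyoneda.obj (op (L.obj K))) :=
  fun J _ _ F hF =>
    have := h.comp (coyoneda.obj (op K)) J F hF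
    preservesColimit_of_natIso F (F := R ⋙ coyoneda.obj (op K))
      (adj.compCoyonedaIso.app (op K)).symm

variable [IsStableUnderTransfiniteComposition.{0} M]

theorem Pres.stable {N : D ⥤ SSet.{0}} (h : Pres M N) :
    IsStableUnderTransfiniteComposition.{0} (M ⊓ trivCof.inverseImage N) where
  isStableUnderTransfiniteCompositionOfShape J _ _ _ _ := ⟨fun X Y f ⟨c⟩ => by
    have hM := fun i j (u : i ⟶ j) => (c.ofLE inf_le_left).mem_map u
    have h1 := h J c.F hM
    have h2 : (c.F ⋙ N).IsWellOrderContinuous := ⟨fun j hj => by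
      have : Nonempty (Set.Iio j) := ⟨⟨⊥, hj.bot_lt⟩⟩
      have := h (Set.Iio j) ((Set.principalSegIio j).monotone.functor ⋙ c.F) fun _ _ _ => hM _ _ _
      exact ⟨isColimitOfPreserves N (c.F.isColimitOfIsWellOrderContinuous j hj)⟩⟩
    exact ⟨M.transfiniteCompositionsOfShape_le J _ ⟨c.ofLE inf_le_left⟩,
      trivCof.transfiniteCompositionsOfShape_le J _
      ⟨{ F := c.F ⋙ N
         isoBot := N.mapIso c.isoBot
         incl := Functor.whiskerRight c.incl N ≫ (Functor.constComp _ _ _).hom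
         isColimit := IsColimit.ofIsoColimit (isColimitOfPreserves N c.isColimit)
           (Cocone.ext (Iso.refl _))
         fac := by simp [← Functor.map_comp]
         map_mem := fun j hj => (c.map_mem j hj).2 }⟩⟩⟩

variable [HasColimitsOfSize.{0, 0} D] [M.IsStableUnderCobaseChange]

section

attribute [local instance] Cardinal.fact_isRegular_aleph0 Cardinal.orderBotAleph0OrdToType

theorem hasSOA (W : MorphismProperty D) [IsSmall.{0} W] (hW : W ≤ M)
    (h : ∀ A B (i : A ⟶ B), W i → Pres M (coyoneda.obj (op A))) : HasSmallObjectArgument.{0} W :=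
  ⟨.aleph0, inferInstance, inferInstance,
    { preservesColimit := fun i hi f hf => by
        have : IsStableUnderCoproducts.{0} M := isStableUnderCoproducts_of_transfinite _
        have h1 : (coproducts.{0} W).pushouts ≤ M := by rwa [pushouts_le_iff, coproducts_le_iff]
        exact h _ _ i hi _ hf.F fun _ _ u => ((hf.transfiniteCompositionOfShape'
          (I := W) fun s => s.i.2).ofLE h1).mem_map u }⟩

end

theorem acyc (W : MorphismProperty D) [HasSmallObjectArgument.{0} W] {N : D ⥤ SSet.{0}}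
    (hN : Pres M N) (hW : W ≤ M) (h : W ≤ univPush (trivCof.inverseImage N)) :
    W.rlp.llp ≤ trivCof.inverseImage N := by
  have := hN.stable
  have : IsStableUnderCoproducts.{0} (univPush (M ⊓ trivCof.inverseImage N)) :=
    isStableUnderCoproducts_of_transfinite _
  rw [llp_rlp_of_hasSmallObjectArgument, retracts_le_iff]
  refine le_trans (le_trans ?_ (univPush_le (M ⊓ trivCof.inverseImage N))) inf_le_right
  rw [transfiniteCompositions_le_iff, pushouts_le_iff, coproducts_le_iff]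
  exact fun A B i hi X P a b j sq => ⟨M.of_isPushout sq.flip (hW i hi), h i hi a b j sq⟩

omit [IsStableUnderTransfiniteComposition.{0} M] [HasColimitsOfSize.{0, 0} D]
  [M.IsStableUnderCobaseChange] in
theorem isModel_of_gen [HasFiniteLimits D] [HasFiniteColimits D] (A B w : MorphismProperty D)
    [HasSmallObjectArgument.{0} A] [HasSmallObjectArgument.{0} B] [w.HasTwoOutOfThreeProperty]
    (h₁ : B.rlp ⊓ w = A.rlp) (h₂ : B.rlp.llp ≤ w) :
    P213Z.G.IsModel (B.rlp ⊓ w).llp w B.rlp := by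
  have e : (B.rlp ⊓ w).llp ⊓ w = B.rlp.llp := by
    refine le_antisymm (fun X Y f hf => ?_) (le_inf (antitone_llp inf_le_left) h₂)
    have d := factorizationData B.rlp.llp B.rlp f
    have := hf.1 d.p ⟨d.hp, w.of_precomp d.i d.p (h₂ _ d.hi) (d.fac.symm ▸ hf.2)⟩
    exact of_retract (RetractArrow.ofLeftLiftingProperty d.fac) d.hi
  refine N213.isModel_of_wfs ?_ ?_ inferInstance
  · rw [h₁]
    exact { rlp := rlp_llp_rlp _, llp := rfl }
  · rw [e]
    exact { rlp := rlp_llp_rlp _, llp := rfl }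

/-- the maps sent into `P` by all functors of a family -/
def allP {ι : Type} (R : ι → D ⥤ SSet.{0}) (P : MorphismProperty SSet.{0}) :
    MorphismProperty D := fun _ _ f => ∀ t, P ((R t).map f)

omit [HasColimitsOfSize.{0, 0} D] in
theorem rlp_iSup' {ι : Type} (W : ι → MorphismProperty D) {X Y : D} (f : X ⟶ Y) :
    (⨆ t, W t).rlp f ↔ ∀ t, (W t).rlp f :=
  ⟨fun h t _ _ i hi => h i (le_iSup W t _ hi), fun h _ _ i hi => by
    obtain ⟨t, ht⟩ := (iSup_iff _ _).1 hi
    exact h t i ht⟩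

variable {ι : Type} {L : ι → SSet.{0} ⥤ D} {R : ι → D ⥤ SSet.{0}} (adj : ∀ t, L t ⊣ R t)
  (hR : ∀ t, Pres M (R t)) (hM : ∀ s K K' (i : K ⟶ K'), Mono i → M ((L s).map i))

include adj hR hM

theorem gen_family : (⨆ t, genJ (L t)) ≤ M ∧ HasSmallObjectArgument.{0} (⨆ t, genJ (L t)) ∧
    (⨆ t, genJ (L t)).rlp = allP R kanFib := by
  have h : ∀ {A B} {i : A ⟶ B}, (⨆ t, genJ (L t)) i → Pres M (coyoneda.obj (op A)) ∧ M i :=
    fun hi => by
      obtain ⟨t, ht⟩ := (iSup_iff _ _).1 hi
      obtain ⟨m, ⟨k⟩⟩ := (iSup_iff _ _).1 ht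
      exact ⟨(hR t).coy (adj t) _, hM t _ _ _ inferInstance⟩
  refine ⟨fun _ _ _ hi => (h hi).2,
    hasSOA _ (fun _ _ _ hi => (h hi).2) fun A B i hi => (h hi).1, ?_⟩
  ext X Y f
  exact (rlp_iSup' _ f).trans (forall_congr' fun t => by rw [rlp_genJ (adj t)]; rfl)

theorem acyc_family {N : D ⥤ SSet.{0}} (hN : Pres M N) (hK : ∀ s m (k : Fin (m + 2)),
    univPush (trivCof.inverseImage N) ((L s).map (Λ[m + 1, k] : SSet.Subcomplex.{0} _).ι)) :
    (allP R kanFib).llp ≤ trivCof.inverseImage N := by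
  obtain ⟨h1, h2, h3⟩ := gen_family adj hR hM
  rw [← h3]
  refine acyc _ hN h1 fun _ _ _ hi => ?_
  obtain ⟨t, ht⟩ := (iSup_iff _ _).1 hi
  obtain ⟨m, ⟨k⟩⟩ := (iSup_iff _ _).1 ht
  exact hK t m k

theorem transfer_family [HasFiniteLimits D] (N : ι → D ⥤ SSet.{0}) (hN : ∀ t, Pres M (N t))
    (hw : ∀ t X Y (f : X ⟶ Y), whe ((R t).map f) ↔ whe ((N t).map f))
    (hK : ∀ s t K K' (i : K ⟶ K'), trivCof i → univPush (trivCof.inverseImage (N t)) ((L s).map i)) :
    P213Z.G.IsModel (allP R kanFib ⊓ allP N whe).llp (allP N whe) (allP R kanFib) := by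
  have h : ∀ {A B} {i : A ⟶ B}, (⨆ t, genI (L t)) i → Pres M (coyoneda.obj (op A)) ∧ M i :=
    fun hi => by
      obtain ⟨t, ⟨m⟩⟩ := (iSup_iff _ _).1 hi
      exact ⟨(hR t).coy (adj t) _, hM t _ _ _ inferInstance⟩
  have hA := hasSOA (⨆ t, genI (L t)) (fun _ _ _ hi => (h hi).2) fun A B i hi => (h hi).1
  have hK' := fun t => acyc_family adj hR hM (hN t) fun s m k =>
    hK s t _ _ _ (trivCof_eq ▸ SSet.anodyneExtensions.horn_ι k)
  obtain ⟨-, hB, eB⟩ := gen_family adj hR hM
  have : (allP N whe).HasTwoOutOfThreeProperty :=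
    { comp_mem := fun f g hf hg t => (whe.inverseImage (N t)).comp_mem f g (hf t) (hg t)
      of_postcomp := fun f g hg h t => (whe.inverseImage (N t)).of_postcomp
        (W' := whe.inverseImage (N t)) f g (hg t) (h t)
      of_precomp := fun f g hf h t => (whe.inverseImage (N t)).of_precomp
        (W' := whe.inverseImage (N t)) f g (hf t) (h t) }
  rw [← eB]
  refine isModel_of_gen (⨆ t, genI (L t)) _ _ ?_ fun X Y f hf t => ?_
  · rw [eB]
    ext X Y f
    refine Iff.trans ?_ ((rlp_iSup' _ f).trans (forall_congr' fun t => by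
      rw [rlp_genI (adj t)])).symm
    exact ⟨fun h t => rlpI_of_kanFib_of_whe _ (h.1 t) ((hw t _ _ f).2 (h.2 t)),
      fun h => ⟨fun t => kanFib_of_rlpI _ (h t), fun t => (hw t _ _ f).1 (rlpI_le_whe _ (h t))⟩⟩
  · exact (hK' t f (eB ▸ hf)).2

end Vale.Agent.N213E
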