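import Vale.Agent.N213E.Fix

/-! # Fixed elements of colimit preserving functors on simplicial sets -/

open CategoryTheory Limits Simplicial Opposite

namespace Vale.Agent.N213E

variable (F : SSet.{0} ⥤ Type) [PreservesColimitsOfSize.{0, 0} F]

omit [PreservesColimitsOfSize.{0, 0} F] in
theorem map_map {A B C : SSet.{0}} {f : A ⟶ B} {g : B ⟶ C} {k : A ⟶ C} (e : f ≫ g = k)
    (q : F.obj A) : F.map g (F.map f q) = F.map k q := by
  rw [← e, F.map_comp]
  rfl

theorem exists_nd {Y : SSet.{0}} (p : F.obj Y) : ∃ (n : ℕ) (x : Y _⦋n⦌),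
    x ∈ Y.nonDegenerate n ∧ ∃ q, F.map (SSet.yonedaEquiv.symm x) q = p := by
  obtain ⟨⟨⟨⟨n⟩⟩, x⟩, q, hq⟩ := Types.jointly_surjective_of_isColimit
    (isColimitOfPreserves F (Presheaf.colimitOfRepresentable.{0} Y)) p
  obtain ⟨m, f, _, y, rfl⟩ := Y.exists_nonDegenerate (n := n) x
  exact ⟨m, y, y.2, F.map (SSet.stdSimplex.map f) q,
    (map_map F (SSet.yonedaEquiv_symm_naturality_left f y.1) q).trans hq⟩

variable (hF : ∀ {A B : SSet.{0}} (f : A ⟶ B), Mono f → Function.Injective (F.map f))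

include hF

theorem exists_inf {Y : SSet.{0}} (A B : Y.Subcomplex) (a : F.obj A) (b : F.obj B)
    (e : F.map A.ι a = F.map B.ι b) : ∃ r, F.map (A ⊓ B).ι r = F.map A.ι a := by
  have sq : SSet.Subcomplex.BicartSq (A ⊓ B) A B (A ⊔ B) := ⟨rfl, rfl⟩
  obtain ⟨r, h1, -⟩ := ((Types.isPullback_iff _ _ _ _).1 (Types.isPullback_of_isPushout
    (sq.isPushout.map F) (hF _ inferInstance))).2.2 a b (hF (A ⊔ B).ι inferInstance
      ((map_map F (SSet.Subcomplex.homOfLE_ι _) a).trans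
        (e.trans (map_map F (SSet.Subcomplex.homOfLE_ι _) b).symm)))
  exact ⟨r, (map_map F (SSet.Subcomplex.homOfLE_ι _) r).symm.trans (congrArg _ h1)⟩

theorem eq_of_min {Y : SSet.{0}} {n : ℕ} {p : F.obj Y} (x x' : Y _⦋n⦌) (q q')
    (e : F.map (SSet.yonedaEquiv.symm x) q = p) (e' : F.map (SSet.yonedaEquiv.symm x') q' = p)
    (hn : ∀ (m : ℕ) (z : Y _⦋m⦌) r, z ∈ Y.nonDegenerate m →
      F.map (SSet.yonedaEquiv.symm z) r = p → n ≤ m) : x = x' := by
  have h1 := (map_map F (SSet.Subcomplex.toOfSimplex_ι x) q).trans e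
  have h2 := (map_map F (SSet.Subcomplex.toOfSimplex_ι x') q').trans e'
  obtain ⟨r, hr⟩ := exists_inf F hF _ _ _ _ (h1.trans h2.symm)
  obtain ⟨m, ⟨z, hz, hz'⟩, hd, s, rfl⟩ := exists_nd F r
  replace hd : z ∈ Y.nonDegenerate m := (SSet.Subcomplex.mem_nonDegenerate_iff _ _).1 hd
  have h3 := hn m z s hd ((map_map F (SSet.yonedaEquiv_symm_comp _ _) s).symm.trans (hr.trans h1))
  obtain ⟨f, hf⟩ := (SSet.Subcomplex.mem_ofSimplex_obj_iff _ _).1 hz
  obtain ⟨f', hf'⟩ := (SSet.Subcomplex.mem_ofSimplex_obj_iff _ _).1 hz'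
  have := Y.mono_of_nonDegenerate ⟨z, hd⟩ f x hf
  have := Y.mono_of_nonDegenerate ⟨z, hd⟩ f' x' hf'
  obtain rfl : n = m := le_antisymm h3 (SimplexCategory.le_of_mono f)
  rw [SimplexCategory.eq_id_of_mono f] at hf
  rw [SimplexCategory.eq_id_of_mono f'] at hf'
  have h4 : ∀ y : Y _⦋n⦌, Y.map (𝟙 ⦋n⦌).op y = y := fun y =>
    ConcreteCategory.congr_hom (Y.map_id _) y
  exact (h4 x).symm.trans (hf.trans (hf'.symm.trans (h4 x')))

/-- A fixed element comes from the fixed points. -/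
theorem exists_fixed {H : Type} [Group H] (K : SingleObj H ⥤ SSet.{0}) (p : F.obj (K.obj (st H)))
    (hp : ∀ h : st H ⟶ st H, F.map (K.map h) p = p) : ∃ q, F.map (fι K) q = p := by
  classical
  have ex := exists_nd F p
  obtain ⟨x, -, q, hq⟩ := Nat.find_spec ex
  obtain ⟨y, rfl⟩ := exists_fι x fun h => eq_of_min F hF _ _ q q
    ((map_map F (SSet.yonedaEquiv_symm_comp _ _) q).symm.trans ((congrArg _ hq).trans (hp h))) hq
    fun m z r hz e => Nat.find_min' ex ⟨z, hz, r, e⟩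
  exact ⟨_, (map_map F (SSet.yonedaEquiv_symm_comp _ _) q).trans hq⟩

end Vale.Agent.N213E
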