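import Vale.Agent.N213E.Ax
import Vale.Agent.N213E.Vert
import Vale.Agent.N213E.Cod
import Vale.Agent.N213E.Tr

/-! # Fixed points of the nerve of equivariant cell attachments -/

open CategoryTheory Limits Simplicial Opposite

namespace Vale.Agent.N213E

variable {H : Type} [Group H]

/-- the left adjoint after two subdivisions -/
noncomputable abbrev lam {D : Type 1} [Category.{0} D] (c : SSet.{0} ⥤ D) : SSet.{0} ⥤ D :=
  (SSet.sd ⋙ SSet.sd) ⋙ c

/-- two extensions -/
noncomputable abbrev ex2 : SSet.{0} ⥤ SSet.{0} := SSet.ex ⋙ SSet.ex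

/-- the double subdivision adjunction -/
noncomputable abbrev sd2 : SSet.sd.{0} ⋙ SSet.sd ⊣ ex2 :=
  SSet.sdExAdjunction.comp SSet.sdExAdjunction

section

open Vale.Agent.P213

variable {D : Type 1} [Category.{0} D] {c : SSet.{0} ⥤ D} {N : D ⥤ SSet.{0}} {adj : c ⊣ N}

theorem pres_lim {M : MorphismProperty D} (T : D ⥤ SingleObj H ⥤ SSet.{0})
    [PreservesFilteredColimitsOfSize.{0, 0} T]
    (hT : ∀ X Y (f : X ⟶ Y), M f → Mono ((T.map f).app (st H))) : Pres M (T ⋙ lim) :=
  fun _ _ _ F hF =>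
    have := lim_chain (F ⋙ T) fun i j u => hT _ _ _ (hF i j u)
    inferInstance

variable [HasPushouts D] [HasPullbacks D]

theorem good₀_nv (hA : ModelAxioms adj) {X : SSet.{0}} {m : ℕ} (i : X ⟶ Δ[m]) [Mono i] :
    AS.Good₀ adj (SSet.sd.map (SSet.sd.map i)) := by
  have : X.Nonsingular := SSet.Nonsingular.of_mono i
  obtain ⟨E, _, _, S, r, hS, hrS, hr, ⟨e⟩⟩ := SdMain.sd_sd_of_mono
    (i ≫ (SSet.stdSimplex.isoNerve m).hom)
  let e' := (SSet.sd ⋙ SSet.sd).mapArrow.mapIso (Arrow.isoMk (f := Arrow.mk i)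
    (g := Arrow.mk (i ≫ (SSet.stdSimplex.isoNerve m).hom)) (Iso.refl _)
    (SSet.stdSimplex.isoNerve m) (Category.id_comp _)) ≪≫ e
  have h : AS.Good₀ adj (nvMap (subIncl S)) :=
    ⟨fun _ _ _ sq => (dwyer_pushout hA S hS r hrS hr sq).1,
      fun _ _ _ sq _ b' j' => (dwyer_pushout hA S hS r hrS hr sq).2 b' j'⟩
  exact h.of_isPushout (k := (Arrow.leftFunc.mapIso e').inv) (k' := (Arrow.rightFunc.mapIso e').inv)
    (IsPushout.of_vert_isIso ⟨(Arrow.w e'.inv).symm⟩)

omit [HasPushouts D] [HasPullbacks D] in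
theorem push_of_good {A B : SSet.{0}} {s : A ⟶ B} (hg : AS.Good₀ adj s) (hs : trivCof s) :
    AS.univPush (trivCof.inverseImage N) (c.map s) := by
  intro X P a b j sq
  have sq' := IsPushout.of_hasPushout s (adj.homEquiv _ _ a)
  have hw : s ≫ adj.homEquiv _ _ b = adj.homEquiv _ _ a ≫ N.map j := by
    rw [← adj.homEquiv_naturality_left, ← adj.homEquiv_naturality_right, sq.w]
  have h1 := hg.whe a b j sq _ _ sq' (sq'.desc _ _ hw) (sq'.inl_desc _ _ _) (sq'.inr_desc _ _ _)
  refine ⟨hg.mono a b j sq, ?_⟩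
  rw [← sq'.inr_desc _ _ hw]
  exact (trivCof.of_isPushout sq'.flip hs).2.comp h1

end

theorem key₀ {D : Type 1} [Category.{0} D] [HasColimitsOfSize.{0, 0} D] [HasPullbacks D]
    {c : SSet.{0} ⥤ D} {N : D ⥤ SSet.{0}} {adj : c ⊣ N} (hA : P213.ModelAxioms adj) (C : FCyl N)
    (m) (k : Fin (m + 2)) : P213.AS.univPush (P213.trivCof.inverseImage (act H N ⋙ lim))
      ((act H (lam c)).map ((Functor.const _).map (Λ[m + 1, k] : SSet.Subcomplex.{0} _).ι)) := by
  intro X P a b j sq
  let e := Functor.compConstIso (SingleObj H) (lam c)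
  exact push_of_good (good₀_nv (axH H hA C) _)
    (P213.AS.trivCof_sd_sd _ (SSet.anodyneExtensions.horn_ι k)) _ _ _
    ((IsPushout.of_vert_isIso ⟨e.hom.naturality _⟩).paste_vert sq)

open Vale.Agent.P213Z.G Vale.Agent.N213

variable {n : ℕ∞} (hn : 1 ≤ n) {c : SSet.{0} ⥤ NCat n} (adj : c ⊣ nerve n)

/-- the equivariant maps that are cofibrations after forgetting the action -/
def uC (H : Type) [Group H] (n : ℕ∞) : MorphismProperty (SingleObj H ⥤ NCat n) :=
  (thF (nerve n) ⊓ thW (nerve n)).llp.inverseImage ((evaluation _ _).obj (st H))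

instance : (uC H n).IsStableUnderCobaseChange := P213.AS.inverseImage_cobaseChange _ _

instance : MorphismProperty.IsStableUnderTransfiniteComposition.{0} (uC H n) :=
  have : PreservesFilteredColimitsOfSize.{0, 0}
    ((evaluation (SingleObj H) (NCat n)).obj (st H)) := ⟨fun _ _ _ => inferInstance⟩
  P213.AS.inverseImage_transfinite _ _

instance {D E : Type 1} [Category.{0} D] [Category.{0} E] [HasColimitsOfSize.{0, 0} D]
    (F : D ⥤ E) [PreservesFilteredColimitsOfSize.{0, 0} F] :
    PreservesFilteredColimitsOfSize.{0, 0} (act H F) := ⟨fun _ _ _ => inferInstance⟩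

include hn

theorem mono_uC {X Y : SingleObj H ⥤ NCat n} (f : X ⟶ Y) (hf : uC H n f) :
    Mono ((nerve n).map (f.app (st H))) ∧ Mono ((nerve n ⋙ ex2).map (f.app (st H))) := by
  have h : Mono ((nerve n).map (f.app (st H))) := mono_nerve _ (sv_of_cof hn _ hf)
  have := sd2.isRightAdjoint
  exact ⟨h, ex2.map_mono _⟩

include adj

theorem key₁ (m) (k : Fin (m + 2)) :
    P213.AS.univPush (P213.trivCof.inverseImage (act H (nerve n) ⋙ lim))
      ((act H (lam c)).map ((Functor.const _).map (Λ[m + 1, k] : SSet.Subcomplex.{0} _).ι)) := by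
  intro X P a b j sq
  let e := (globN n).asEquivalence.symm.toAdjunction
  let adj' : c ⋙ (globN n).inv ⊣ P213.nerveN n := (adj.comp e).ofNatIsoRight (nerveIso n).symm
  have := (e.whiskerRight (SingleObj H)).leftAdjoint_preservesColimits.{0, 0}
  have h := key₀ (P213.modelAxioms_nerveN hn adj') (fcyl n) m k _ _ _
    (sq.map (act H (globN n).asEquivalence.symm.functor))
  exact (P213.trivCof.arrow_mk_iso_iff (((Functor.mapArrowFunctor _ _).mapIso
    (Functor.isoWhiskerRight ((Functor.whiskeringRight (SingleObj H) _ _).mapIso (invIso n))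
      lim)).app (Arrow.mk j))).1 h

theorem sv_lam {K L : SSet.{0}} (i : K ⟶ L) (hi : Mono i) : thC (nerve n) ((lam c).map i) :=
  (((main n hn).2.2.2.2.2 c adj).1.1 _ _ i hi).1

theorem key₁' {K L : SSet.{0}} {i : K ⟶ L} (hi : P213.trivCof i) :
    P213.AS.univPush (P213.trivCof.inverseImage (act H (nerve n) ⋙ lim))
      ((act H (lam c)).map ((Functor.const _).map i)) := by
  intro X P a b j sq
  let A := constLimAdj.comp ((sd2.comp adj).whiskerRight (SingleObj H))
  rw [P213.trivCof_eq] at hi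
  exact acyc_family (M := uC H n) (fun _ : Unit => A)
    (fun _ => pres_lim _ fun _ _ f hf => (mono_uC hn f hf).2)
    (fun _ _ _ i hi => sv_lam hn adj i hi) (pres_lim _ fun _ _ f hf => (mono_uC hn f hf).1)
    (fun _ => key₁ hn adj) j (MorphismProperty.of_isPushout sq.flip fun _ _ p hp =>
      (A.hasLiftingProperty_iff _ _).2 (hi _ (hp ())))

theorem key₂ {K L : SingleObj H ⥤ SSet.{0}} {i : K ⟶ L} (hi : Mono (i.app (st H)))
    (u : lim.obj L ⟶ K.obj (st H)) (hu : u ≫ i.app (st H) = fι L) :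
    P213.AS.univPush ((MorphismProperty.isomorphisms _).inverseImage (act H (nerve n) ⋙ lim))
      ((act H (lam c)).map i) := by
  intro X P a b j sq
  have sq₀ := sq.map ((evaluation _ _).obj (st H))
  have hj : sv n (j.app (st H)) := sv_of_cof hn _ (MorphismProperty.of_isPushout
    (P := (thF (nerve n) ⊓ thW (nerve n)).llp) sq₀.flip (sv_lam hn adj _ hi))
  have h1 := cells_left hn
  have h2 := ((SSet.sdExAdjunction.comp SSet.sdExAdjunction).comp adj).isLeftAdjoint
  have hF : ∀ {A B : SSet.{0}} (f : A ⟶ B), Mono f →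
      Function.Injective ((lam c ⋙ cells n 0).map f) :=
    fun f hf => (sv_of_cof hn _ (sv_lam hn adj f hf) 0).1
  have sq₁ := sq₀.map (cells n 0)
  have hv : ∀ v : (P.obj (st H)).obj.C 0, (∀ h : st H ⟶ st H, (P.map h).hom.f 0 v = v) →
      v ∈ Set.range ((j.app (st H)).hom.f 0) := fun v hv => by
    rcases Types.eq_or_eq_of_isPushout' sq₁.flip v with ⟨x, hx⟩ | ⟨y, hy, hy'⟩
    · exact ⟨x, hx⟩
    · obtain ⟨q, rfl⟩ := exists_fixed (lam c ⋙ cells n 0) hF L y fun h =>
        (ext_off sq₁ (hF _ hi) hy' (hy.trans ((hv h).symm.trans ((congrArg _ hy.symm).trans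
          ((comp_f (b.naturality h).symm 0 y).trans (comp_f rfl 0 y).symm))))).symm
      exact absurd ⟨_, map_map (lam c ⋙ cells n 0) hu q⟩ hy'
  have : Mono (((act H (nerve n)).map j).app (st H)) := mono_nerve _ hj
  refine isIso_lim ((act H (nerve n)).map j) fun m y => ?_
  refine exists_simplex _ hj ((fι (P ⋙ nerve n)).app m y) fun k => hv _ fun h => ?_
  exact congrArg (fun σ : Fun (Orn m.unop.len) (P.obj (st H)).obj => σ.f 0 (vx k))
    (act_fι (K := P ⋙ nerve n) h m y)

theorem key {K L : SingleObj H ⥤ SSet.{0}} (i : K ⟶ L) [Mono i]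
    (hi : P213.whe (lim.map i)) :
    P213.AS.univPush (P213.trivCof.inverseImage (act H (nerve n) ⋙ lim))
      ((act H (lam c)).map i) := by
  intro X P a b j sq
  have h2 := (((SSet.sdExAdjunction.comp SSet.sdExAdjunction).comp adj).whiskerRight
    (SingleObj H)).leftAdjoint_preservesColimits.{0, 0}
  have := mono_st i
  obtain ⟨K', l, r, s⟩ : ∃ (K' : SingleObj H ⥤ SSet.{0}) (l : _ ⟶ K') (r : _ ⟶ K'),
      IsPushout ((Functor.const _).map (lim.map i)) (fε K) l r :=
    ⟨_, _, _, IsPushout.of_hasPushout _ _⟩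
  have hm : Mono ((s.desc (fε L) i (fε_nat i)).app (st H)) := by
    rw [NatTrans.mono_iff_mono_app]
    intro m
    refine Types.mono_of_isPushout_of_isPullback
      ((s.map ((evaluation _ _).obj (st H))).map ((evaluation _ _).obj m))
      (r' := (fι L).app m) (b' := (i.app (st H)).app m) ?_
      (congr_app (congr_app (s.inl_desc _ _ _) (st H)) m)
      (congr_app (congr_app (s.inr_desc _ _ _) (st H)) m) fun x y _ _ e => inj_app _ m e
    rw [Types.isPullback_iff]
    exact ⟨congr_app (fι_nat i) m, fun x y e => inj_app (fι K) m e.2,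
      fun y x e => exists_lim i y x e.symm⟩
  have t := IsPushout.of_hasPushout ((act H (lam c)).map r) a
  have sq' := sq
  rw [← s.inr_desc (fε L) i (fε_nat i), Functor.map_comp] at sq'
  have k1 := key₁' hn adj ⟨mono_lim i, hi⟩ _ _ _ ((s.map (act H (lam c))).paste_vert t)
  have k2 : IsIso _ := key₂ hn adj hm (l.app (st H))
    (congr_app (s.inl_desc _ _ _) (st H)) _ _ _ (sq'.of_left' t)
  have k3 := P213.trivCof.comp_mem _ _ k1 (@MorphismProperty.of_isIso _ _ P213.trivCof _ _ _ _ _ k2)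
  rwa [← Functor.map_comp, t.inr_desc] at k3

end Vale.Agent.N213E
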