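import Vale.Agent.N213E.Fix

/-! # Orbits: the left adjoints of the fixed point functors -/

open CategoryTheory Limits Simplicial Opposite MonoidalCategory CartesianMonoidalCategory

namespace Vale.Agent.N213E

section

variable {H : Type} [Group H]

/-- products with a simplicial set with action -/
noncomputable def ten (T : SingleObj H ⥤ SSet.{0}) : SSet.{0} ⥤ (SingleObj H ⥤ SSet.{0}) :=
  tensoringLeft SSet.{0} ⋙ (Functor.whiskeringLeft _ _ _).obj T

variable (T : SingleObj H ⥤ SSet.{0})

/-- the fixed points of a product -/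
noncomputable def tenFix (K : SSet.{0}) : K ⊗ lim.obj T ⟶ lim.obj ((ten T).obj K) :=
  fl (K := (ten T).obj K) (K ◁ fι T) fun h =>
    (MonoidalCategory.whiskerLeft_comp _ _ _).symm.trans (congrArg _ (fι_act T h))

theorem tenFix_ι (K : SSet.{0}) : tenFix T K ≫ fι _ = K ◁ fι T := fl_ι _ _

instance (K : SSet.{0}) : IsIso (tenFix T K) := by
  rw [NatTrans.isIso_iff_isIso_app]
  intro n
  rw [isIso_iff_bijective]
  have e : ∀ z, (fι ((ten T).obj K)).app n ((tenFix T K).app n z) = (z.1, (fι T).app n z.2) :=
    fun z => app_comp (tenFix_ι T K) n z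
  refine ⟨fun x y h => ?_, fun y => ?_⟩
  · have h1 := (e x).symm.trans ((congrArg _ h).trans (e y))
    exact Prod.ext (Prod.ext_iff.1 h1).1 (inj_app (fι T) n (Prod.ext_iff.1 h1).2)
  · obtain ⟨s, hs⟩ := exists_fι (K := T) ((fι ((ten T).obj K)).app n y).2 fun h =>
      congrArg Prod.snd (act_fι (K := (ten T).obj K) h n y)
    exact ⟨(((fι ((ten T).obj K)).app n y).1, s), inj_app (fι _) n ((e _).trans (Prod.ext rfl hs))⟩

theorem tenFix_nat {K L : SSet.{0}} (i : K ⟶ L) :
    tenFix T K ≫ lim.map ((ten T).map i) = i ▷ _ ≫ tenFix T L := by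
  rw [← cancel_mono (fι _), Category.assoc, Category.assoc, fι_nat, tenFix_ι, ← Category.assoc,
    tenFix_ι]
  exact whisker_exchange _ _

theorem whe_ten {K L : SSet.{0}} {i : K ⟶ L} (hi : P213.whe i) :
    P213.whe (lim.map ((ten T).map i)) := by
  refine (P213.whe_of_isIso (tenFix T K)).cancel_pre ?_
  rw [tenFix_nat]
  exact (hi.whiskerRight _).comp (P213.whe_of_isIso _)

instance {K L : SSet.{0}} (i : K ⟶ L) [Mono i] : Mono ((ten T).map i) := by
  have : ∀ j, Mono (((ten T).map i).app j) := fun j =>
    P213.CAPoset.mono_of_injective_app _ fun n x y e =>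
      Prod.ext (inj_app i n (Prod.ext_iff.1 e).1) (Prod.ext_iff.1 e).2
  exact NatTrans.mono_of_mono_app _

end

variable {G : Type} [Group G] (H : Subgroup G)

/-- restriction of the action -/
abbrev res (C : Type 1) [Category.{0} C] : (SingleObj G ⥤ C) ⥤ (SingleObj H ⥤ C) :=
  (Functor.whiskeringLeft _ _ _).obj H.subtype.toFunctor

/-- the orbit as a discrete simplicial set -/
def orbS : SingleObj G ⥤ SSet.{0} where
  obj _ := (Functor.const _).obj (G ⧸ H)
  map g := (Functor.const _).map (TypeCat.ofHom fun q : G ⧸ H => (show G from g) • q)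
  map_id _ := by
    ext n q
    exact one_smul G (show G ⧸ H from q)
  map_comp f g := by
    ext n q
    exact mul_smul (show G from g) (show G from f) (show G ⧸ H from q)

variable {H}

theorem act_congr (X : SingleObj G ⥤ SSet.{0}) {n} (y : ((fix H).obj X).obj n) {g g' : G}
    (e : (g : G ⧸ H) = g') :
    (X.map (X := st G) (Y := st G) g).app n ((fι ((res H _).obj X)).app n y) =
      (X.map (X := st G) (Y := st G) g').app n ((fι ((res H _).obj X)).app n y) := by
  have h1 := act_fι (K := (res H _).obj X) (⟨g⁻¹ * g', QuotientGroup.eq.1 e⟩ : H) n y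
  refine (congrArg _ h1.symm).trans ((app_comp
    (X.map_comp (X := st G) (Y := st G) (Z := st G) (g⁻¹ * g' : G) g).symm n _).trans ?_)
  have e2 : (show st G ⟶ st G from (g⁻¹ * g' : G)) ≫ (show st G ⟶ st G from g) =
    (show st G ⟶ st G from g') := mul_inv_cancel_left g g'
  exact congrArg (fun f => (X.map f).app n _) e2

/-- the base point of the orbit -/
noncomputable def base (K : SSet.{0}) : K ⟶ ((ten (orbS H)).obj K).obj (st G) :=
  lift (𝟙 K) (SSet.const (show (((Functor.const _).obj (G ⧸ H) : SSet.{0})) _⦋0⦌ from ((1 : G) : G ⧸ H)))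

/-- the equivariant extension -/
noncomputable def extend {K : SSet.{0}} {X : SingleObj G ⥤ SSet.{0}} (k : K ⟶ (fix H).obj X) :
    (ten (orbS H)).obj K ⟶ X where
  app _ :=
    { app n := TypeCat.ofHom fun z => (X.map (X := st G) (Y := st G) (Quotient.out z.2 : G)).app n
        ((fι ((res H _).obj X)).app n (k.app n z.1))
      naturality m n θ := by
        ext z
        have h1 := NatTrans.naturality_apply (k ≫ fι ((res H _).obj X) ≫
          X.map (X := st G) (Y := st G) (Quotient.out z.2 : G)) θ z.1
        exact h1 }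
  naturality _ _ g := by
    ext n z
    refine (act_congr X (k.app n z.1) (g' := (show G from g) * Quotient.out z.2) ?_).trans
      (app_comp (X.map_comp (X := st G) (Y := st G) (Z := st G) (Quotient.out z.2 : G) g).symm
        n _).symm
    exact (QuotientGroup.out_eq' _).trans
      (MulAction.Quotient.mk_smul_out H (show G from g) z.2).symm

/-- the restriction to the base point -/
noncomputable def restr {K : SSet.{0}} {X : SingleObj G ⥤ SSet.{0}}
    (f : (ten (orbS H)).obj K ⟶ X) : K ⟶ (fix H).obj X :=
  fl (K := (res H _).obj X) (base K ≫ f.app (st G)) fun h => by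
    refine (Category.assoc _ _ _).trans ((congrArg _ (f.naturality _).symm).trans
      ((Category.assoc _ _ _).symm.trans (congrArg (· ≫ _) ?_)))
    ext n x
    refine Prod.ext rfl ?_
    change ((((show H from h) : G) * 1 : G) : G ⧸ H) = ((1 : G) : G ⧸ H)
    rw [QuotientGroup.eq]
    simp

theorem restr_ι {K : SSet.{0}} {X : SingleObj G ⥤ SSet.{0}} (f : (ten (orbS H)).obj K ⟶ X) :
    restr f ≫ fι ((res H _).obj X) = base K ≫ f.app (st G) := fl_ι (K := (res H _).obj X) _ _

variable (H)

/-- the orbit functor is left adjoint to the fixed points -/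
noncomputable def orbAdj : ten (orbS H) ⊣ fix H := Adjunction.mkOfHomEquiv
  { homEquiv K X :=
      { toFun := restr
        invFun := extend
        left_inv f := by
          refine NatTrans.ext (funext fun _ => ?_)
          ext n z
          refine (congrArg _ (app_comp (restr_ι f) n z.1)).trans
            ((nat_app f _ n _).trans (congrArg _ (Prod.ext rfl ?_)))
          change (((Quotient.out z.2 : G) * 1 : G) : G ⧸ H) = z.2
          exact (congrArg _ (mul_one _)).trans (QuotientGroup.out_eq' _)
        right_inv k := by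
          refine (cancel_mono (fι ((res H _).obj X))).1 ((restr_ι _).trans ?_)
          ext n x
          refine (act_congr X (k.app n x) (g' := 1) (QuotientGroup.out_eq' _)).trans ?_
          exact congrArg (fun f : X.obj (st G) ⟶ X.obj (st G) => f.app n
            ((fι ((res H _).obj X)).app n (k.app n x))) (X.map_id (st G)) }
    homEquiv_naturality_left_symm f k := rfl
    homEquiv_naturality_right {K X Y} f g := by
      refine (cancel_mono (fι ((res H _).obj Y))).1 ((restr_ι (f ≫ g)).trans (Eq.symm ?_))
      refine (Category.assoc _ _ _).trans ((congrArg _ (fι_nat ((res H _).map g))).trans ?_)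
      refine (Category.assoc _ _ _).symm.trans ?_
      exact (congrArg (· ≫ _) (restr_ι f)).trans (Category.assoc _ _ _) }

theorem whe_orb (J : Subgroup G) {K L : SSet.{0}} {i : K ⟶ L} (hi : P213.whe i) :
    P213.whe ((fix H).map ((ten (orbS J)).map i)) :=
  whe_ten (H.subtype.toFunctor ⋙ orbS J) hi

end Vale.Agent.N213E
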