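import Vale.Agent.N213E.Key
import Vale.Agent.N213E.Orb

/-! # The equivariant Thomason model structure -/

open CategoryTheory Limits Simplicial Opposite MorphismProperty SSet.modelCategoryQuillen

namespace Vale.Agent.N213E

open Vale.Agent.P213Z.G Vale.Agent.N213

theorem weq_eq : weq = P213.whe := P213Z.gweq_eq.trans P213.St.whe_eq.symm

theorem whe_lim_ex {H : Type} [Group H] {X Y : SingleObj H ⥤ SSet.{0}} (f : X ⟶ Y) :
    P213.whe (lim.map ((act H ex2).map f)) ↔ P213.whe (lim.map f) := by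
  have := sd2.rightAdjoint_preservesLimits.{0, 0}
  refine (P213.whe.arrow_mk_iso_iff (((Functor.mapArrowFunctor _ _).mapIso
    (preservesLimitNatIso (J := SingleObj H) ex2)).app (Arrow.mk f))).symm.trans ?_
  exact (P213.whe_ex_iff _).trans (P213.whe_ex_iff _)

theorem whe_unit' {H : Type} [Group H] {D : Type 1} [Category.{0} D] {L : SSet.{0} ⥤ D}
    {R : D ⥤ SSet.{0}} (A : L ⊣ R) (K : SingleObj H ⥤ SSet.{0})
    (h1 : P213.whe (lim.map ((act H L ⋙ act H R).map (fε K))))
    (h2 : P213.whe (A.unit.app (lim.obj K))) :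
    P213.whe (lim.map ((A.whiskerRight (SingleObj H)).unit.app K)) := by
  have h4 : P213.whe (lim.map ((A.whiskerRight (SingleObj H)).unit.app
      ((Functor.const (SingleObj H)).obj (lim.obj K)))) := by
    have a1 := isIso_fι ((Functor.const (SingleObj H)).obj (lim.obj K)) fun _ => rfl
    have a2 := isIso_fι ((act H L ⋙ act H R).obj ((Functor.const (SingleObj H)).obj (lim.obj K)))
      fun _ => (L ⋙ R).map_id _
    refine (@P213.whe_of_isIso _ _ _ a2).cancel_post ?_
    rw [fι_nat]
    refine (@P213.whe_of_isIso _ _ _ a1).comp ?_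
    rw [Adjunction.whiskerRight_unit_app_app]
    exact h2
  refine (P213.whe_of_isIso (lim.map (fε K))).cancel_pre ?_
  have e := congrArg lim.map ((A.whiskerRight (SingleObj H)).unit.naturality (fε K))
  rw [lim.map_comp, lim.map_comp] at e
  exact e.symm ▸ h4.comp h1

variable {n : ℕ∞} (hn : 1 ≤ n) {c : SSet.{0} ⥤ NCat n} (adj : c ⊣ nerve n)

include hn in
theorem whe_unit {H : Type} [Group H] (K : SingleObj H ⥤ SSet.{0}) :
    P213.whe (lim.map (((sd2.comp adj).whiskerRight (SingleObj H)).unit.app K)) := by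
  refine whe_unit' _ K ((whe_lim_ex ((act H (nerve n)).map ((act H (lam c)).map (fε K)))).2
    (P213.AS.univPush_le _ _ (key hn adj (fε K) (P213.whe_of_isIso _))).2) ?_
  have h3 := (((main n hn).2.2.2.2.2 c adj).1.2 (lim.obj K) _ (𝟙 _)).1
    (by rw [thW, weq_eq]; exact (P213.whe.inverseImage _).id_mem _)
  rw [weq_eq, CategoryTheory.Functor.map_id] at h3
  exact (Category.comp_id ((sd2.comp adj).unit.app (lim.obj K))) ▸ h3

variable {G : Type} [Group G]

theorem mono_res (H : Subgroup G) {K L : SingleObj G ⥤ SSet.{0}} (i : K ⟶ L) [Mono i] :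
    Mono ((res H _).map i) := by
  have : ∀ j, Mono (((res H _).map i).app j) := fun _ => mono_st i
  exact NatTrans.mono_of_mono_app _

theorem keyS (H : Subgroup G) {K L : SingleObj G ⥤ SSet.{0}} (i : K ⟶ L) [Mono i]
    (hi : P213.whe ((fix H).map i)) : P213.AS.univPush (P213.trivCof.inverseImage (fix H)) i := by
  intro X P a b j sq
  have := mono_res H i
  have := mono_st i
  exact P213.trivCof.of_isPushout (isPushout_lim (sq.map (res H _))).flip
    ⟨mono_lim ((res H _).map i), hi⟩

include hn adj in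
theorem keyG (H : Subgroup G) {K L : SingleObj G ⥤ SSet.{0}} (i : K ⟶ L) [Mono i]
    (hi : P213.whe ((fix H).map i)) :
    P213.AS.univPush (P213.trivCof.inverseImage (act G (nerve n) ⋙ fix H))
      ((act G (lam c)).map i) := by
  intro X P a b j sq
  have := mono_res H i
  exact key hn adj ((res H _).map i) hi _ _ _ (sq.map (res H _))

variable (𝓕 : Set (Subgroup G))

theorem onFix_eq {D : Type 1} [Category.{0} D] (R : D ⥤ SingleObj G ⥤ SSet.{0})
    (P : MorphismProperty SSet.{0}) :
    (onFix 𝓕 P).inverseImage R = allP (fun t : 𝓕 => R ⋙ fix t.1) P := by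
  ext X Y f
  exact ⟨fun h t => h t.1 t.2, fun h H hH => h ⟨H, hH⟩⟩

/-- the equivariant maps that are monomorphisms after forgetting the action -/
def uM (G : Type) [Group G] : MorphismProperty (SingleObj G ⥤ SSet.{0}) :=
  (monomorphisms _).inverseImage ((evaluation _ _).obj (st G))

instance : (uM G).IsStableUnderCobaseChange := P213.AS.inverseImage_cobaseChange _ _

instance : IsStableUnderTransfiniteComposition.{0} (uM G) :=
  have : PreservesFilteredColimitsOfSize.{0, 0}
    ((evaluation (SingleObj G) SSet.{0}).obj (st G)) := ⟨fun _ _ _ => inferInstance⟩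
  P213.AS.inverseImage_transfinite _ _

instance (H : Subgroup G) : PreservesFilteredColimitsOfSize.{0, 0} (res H SSet.{0}) :=
  ⟨fun _ _ _ => inferInstance⟩

theorem pres_fix (H : Subgroup G) : Pres (uM G) (fix H) := pres_lim (res H _) fun _ _ _ hf => hf

theorem model_sset : IsModel (onFix 𝓕 J.rlp ⊓ onFix 𝓕 weq).llp (onFix 𝓕 weq) (onFix 𝓕 J.rlp) := by
  have h := transfer_family (fun t : 𝓕 => orbAdj t.1) (fun t => pres_fix t.1)
    (fun s _ _ i _ => mono_st ((ten (orbS s.1)).map i)) (fun t => fix t.1) (fun t => pres_fix t.1)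
    (fun _ _ _ _ => Iff.rfl) fun s t K K' i hi => by
      have : Mono i := hi.1
      exact keyS _ _ (whe_orb _ _ hi.2)
  have e : ∀ P, onFix 𝓕 P = allP (fun t : 𝓕 => fix t.1) P := fun P => onFix_eq 𝓕 (𝟭 _) P
  rw [e, e, weq_eq]
  exact h

include hn in
theorem model_ncat : IsModel
    ((onFix 𝓕 J.rlp).inverseImage (act G (nerve n ⋙ ex2)) ⊓
      (onFix 𝓕 weq).inverseImage (act G (nerve n))).llp
    ((onFix 𝓕 weq).inverseImage (act G (nerve n)))
    ((onFix 𝓕 J.rlp).inverseImage (act G (nerve n ⋙ ex2))) := by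
  have := (main n hn).2.2.2.2.1
  let adj := Adjunction.ofIsRightAdjoint (nerve n)
  have h := transfer_family (M := uC G n)
    (fun t : 𝓕 => (orbAdj t.1).comp ((sd2.comp adj).whiskerRight _))
    (fun t => pres_lim (act G (nerve n ⋙ ex2) ⋙ res t.1 _) fun _ _ f hf => (mono_uC hn f hf).2)
    (fun s _ _ i _ => sv_lam hn adj _ (mono_st ((ten (orbS s.1)).map i)))
    (fun t => act G (nerve n) ⋙ fix t.1)
    (fun t => pres_lim (act G (nerve n) ⋙ res t.1 _) fun _ _ f hf => (mono_uC hn f hf).1)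
    (fun t _ _ f => whe_lim_ex ((res t.1 _).map ((act G (nerve n)).map f)))
    fun s t K K' i hi => by
      have : Mono i := hi.1
      exact keyG hn adj _ _ (whe_orb _ _ hi.2)
  rw [onFix_eq, onFix_eq, weq_eq]
  exact h

variable {𝓕} in
theorem onFix_ex {X Y : SingleObj G ⥤ NCat n} (f : X ⟶ Y) :
    onFix 𝓕 weq ((act G (nerve n ⋙ ex2)).map f) ↔ onFix 𝓕 weq ((act G (nerve n)).map f) := by
  rw [weq_eq]
  exact forall₂_congr fun H _ => whe_lim_ex ((res H _).map ((act G (nerve n)).map f))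

include hn in
theorem qe : IsQE ((sd2.comp adj).whiskerRight (SingleObj G))
    (onFix 𝓕 J.rlp ⊓ onFix 𝓕 weq).llp (onFix 𝓕 weq)
    ((onFix 𝓕 J.rlp).inverseImage (act G (nerve n ⋙ ex2)) ⊓
      (onFix 𝓕 weq).inverseImage (act G (nerve n))).llp
    ((onFix 𝓕 weq).inverseImage (act G (nerve n))) := by
  let A := (sd2.comp adj).whiskerRight (SingleObj G)
  have hw := (IsModel.wfs (model_sset 𝓕)).2.2.1
  have hu : ∀ K, onFix 𝓕 weq (A.unit.app K) := fun K H hH => by
    rw [weq_eq]
    exact whe_unit hn adj ((res H _).obj K)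
  refine ⟨fun K K' i hi => ⟨fun X Y p hp => (A.hasLiftingProperty_iff _ _).2
    (hi _ ⟨hp.1, (onFix_ex p).2 hp.2⟩), fun h => (onFix_ex _).1 ?_⟩,
    fun K Y f => (onFix_ex f).symm.trans ((onFix 𝓕 weq).precomp_iff _ _ (hu K)).symm⟩
  refine (onFix 𝓕 weq).of_precomp (W' := onFix 𝓕 weq) _ _ (hu K) ?_
  erw [← A.unit.naturality i]
  exact (onFix 𝓕 weq).comp_mem _ _ h (hu K')

end Vale.Agent.N213E
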